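import Vale.Agent.P251.Q.FGL
import Vale.Agent.P251.F.Height
import Vale.Agent.P241.H46.Roots2

/-!
# P241, block EUL (A1): families of nilpotent points of the formal group law

`(E, o)` is an oriented theory, `R` an algebra over the coefficient ring `E.A`, `ι` an additive
group and `x : ι → R` a family of nilpotent elements with `x 0 = 0` and `x (a + b) = x a +_F x b`
(the Euler classes of a group of line bundles).

* `exists_unit_sub` : `x a - x b = unit * x (a - b)`;
* `nev1_multSeries_nsmul` : `[m](x a) = x (m a)`;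
* `sum_eq_zero` : `∑_{n < L} c_n (x a)^n = 0` for large `L`, `c = coefficients of [p]`, if `p a = 0`;
* `roots_abelian` : `v_t^M (∏_{a ≠ 0} x a)^N ∈ I_h R` where `N` depends only on `p`, `h`, `#ι`.
-/

open Finset
open Vale.Agent.P251.Q Vale.Agent.P251.Q.MultTheory Vale.Agent.P251.F Vale.Agent.P217

universe v

namespace Vale.Agent.P241.H872

variable {E : MultTheory.{v}} (o : Orientation E) {R : Type*} [CommRing R] [Algebra E.A R]

theorem lawCoeff_zero_left (i : ℕ) : o.lawCoeff 0 i = if i = 1 then 1 else 0 := by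
  rw [lawCoeff_comm, lawCoeff_zero_right]

/-- `y +_F z = z + unit * y`. -/
theorem exists_unit_add {y z : R} (hy : IsNilpotent y) (hz : IsNilpotent z) :
    ∃ u : Rˣ, nev ![y, z] o.law.ps = z + u * y := by
  obtain ⟨n1, h1⟩ := hy
  obtain ⟨n2, h2⟩ := hz
  obtain ⟨n, hn, hy, hz⟩ : ∃ n, 2 ≤ n ∧ y ^ n = 0 ∧ z ^ n = 0 :=
    ⟨n1 + n2 + 2, by omega, pow_eq_zero_of_le (by omega) h1, pow_eq_zero_of_le (by omega) h2⟩
  have hyn : y ∈ nilradical R := mem_nilradical.2 ⟨n, hy⟩
  have hzn : z ∈ nilradical R := mem_nilradical.2 ⟨n, hz⟩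
  set w : R := ∑ k ∈ range (n - 1), ∑ l ∈ range n, o.lawCoeff (k + 1) l • (y ^ k * z ^ l) with hw
  have h3 : nev ![y, z] o.law.ps = z + w * y := by
    rw [law_ps, nev_eq_val₂ hy hz, val₂]
    obtain ⟨m, rfl⟩ : ∃ m, n = m + 1 := ⟨n - 1, by omega⟩
    rw [sum_range_succ', add_comm]
    congr 1
    · rw [sum_eq_single 1]
      · rw [lawCoeff_zero_left, if_pos rfl, one_smul, pow_zero, one_mul, pow_one]
      · intro l _ hl
        rw [lawCoeff_zero_left, if_neg hl, zero_smul]
      · intro h
        exact absurd (mem_range.2 (by omega)) h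
    · rw [hw, sum_mul]
      refine sum_congr (by simp) fun k _ => ?_
      rw [sum_mul]
      refine sum_congr rfl fun l _ => ?_
      rw [smul_mul_assoc, pow_succ]
      congr 1
      ring
  have h4 : w - 1 ∈ nilradical R := by
    have h5 : w = (∑ k ∈ range (n - 1), ∑ l ∈ range n,
        if k = 0 ∧ l = 0 then (1 : R) else 0) + ∑ k ∈ range (n - 1), ∑ l ∈ range n,
        if k = 0 ∧ l = 0 then 0 else o.lawCoeff (k + 1) l • (y ^ k * z ^ l) := by
      rw [hw, ← sum_add_distrib]
      refine sum_congr rfl fun k _ => ?_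
      rw [← sum_add_distrib]
      refine sum_congr rfl fun l _ => ?_
      split_ifs with h
      · rw [h.1, h.2, zero_add, lawCoeff_zero_right, if_pos rfl]
        simp
      · simp
    have h6 : (∑ k ∈ range (n - 1), ∑ l ∈ range n,
        if k = 0 ∧ l = 0 then (1 : R) else 0) = 1 := by
      rw [sum_eq_single 0, sum_eq_single 0]
      · simp
      · intro l _ hl
        simp [hl]
      · intro h
        exact absurd (mem_range.2 (by omega)) h
      · intro k _ hk
        simp [hk]
      · intro h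
        exact absurd (mem_range.2 (by omega)) h
    rw [h5, h6, add_sub_cancel_left]
    refine Ideal.sum_mem _ fun k _ => Ideal.sum_mem _ fun l _ => ?_
    split_ifs with h
    · exact Ideal.zero_mem _
    · rw [Algebra.smul_def]
      refine Ideal.mul_mem_left _ _ ?_
      rcases Nat.eq_zero_or_pos k with rfl | hk
      · have hl : l ≠ 0 := fun h' => h ⟨rfl, h'⟩
        exact Ideal.mul_mem_left _ _ (Ideal.pow_mem_of_mem _ hzn _ (Nat.pos_of_ne_zero hl))
      · exact Ideal.mul_mem_right _ _ (Ideal.pow_mem_of_mem _ hyn _ hk)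
  have h5 : IsUnit w := by
    have := (mem_nilradical.1 h4).isUnit_one_add
    rwa [add_sub_cancel] at this
  obtain ⟨u, hu⟩ := h5
  exact ⟨u, by rw [h3, hu]⟩

/-- A family of nilpotent points of the formal group law, indexed by an additive group. -/
structure Points (ι : Type*) [AddCommGroup ι] (x : ι → R) : Prop where
  nil : ∀ a, IsNilpotent (x a)
  zero : x 0 = 0
  add : ∀ a b, x (a + b) = nev ![x a, x b] o.law.ps

namespace Points

variable {o} {ι : Type*} [AddCommGroup ι] {x : ι → R}

theorem exists_unit_sub (hx : Points o ι x) (a b : ι) :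
    ∃ u : Rˣ, x a - x b = u * x (a - b) := by
  obtain ⟨u, hu⟩ := exists_unit_add o (hx.nil (a - b)) (hx.nil b)
  refine ⟨u, ?_⟩
  rw [← hx.add, sub_add_cancel] at hu
  rw [hu, add_sub_cancel_left]

/-- `[m](x a) = x (m a)` -/
theorem nev1_multSeries_nsmul (hx : Points o ι x) (a : ι) (m : ℕ) :
    nev1 (x a) (multSeries o.law.toFG m) = x (m • a) := by
  induction m with
  | zero => rw [nev1_multSeries_zero _ (hx.nil a), zero_smul, hx.zero]
  | succ m ih =>
    rw [nev1_multSeries_succ _ (hx.nil a), ih, succ_nsmul, hx.add]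

/-- the coefficients of the `p`-series, as elements of `R` -/
noncomputable def c (o : Orientation E) (R : Type*) [CommRing R] [Algebra E.A R] (p n : ℕ) : R :=
  algebraMap E.A R (PowerSeries.coeff n (multSeries o.law.toFG p))

theorem sum_eq_zero (hx : Points o ι x) {p : ℕ} {a : ι} (ha : p • a = 0) :
    ∃ L₀, ∀ L ≥ L₀, ∑ n ∈ range L, c o R p n * x a ^ n = 0 := by
  obtain ⟨n, hn⟩ := hx.nil a
  refine ⟨n, fun L hL => ?_⟩
  have h := hx.nev1_multSeries_nsmul a p
  rw [ha, hx.zero, nev1_eq_sum (pow_eq_zero_of_le hL hn)] at h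
  rw [← h]
  exact sum_congr rfl fun n _ => (Algebra.smul_def _ _).symm

variable (p : ℕ) [hp : Fact p.Prime]

theorem c_mem (h n : ℕ) (hn : ¬ p ^ h ∣ n) :
    c o R p n ∈ (IF p o.law.toFG h).map (algebraMap E.A R) := by
  have := o.law.comm
  exact Ideal.mem_map_of_mem _ (coeff_multSeries_mem p o.law.toFG h n hn)

omit hp in
theorem p_mem (h : ℕ) (hh : 0 < h) :
    (p : R) ∈ (IF p o.law.toFG h).map (algebraMap E.A R) := by
  have h1 := Ideal.mem_map_of_mem (algebraMap E.A R) (vF_mem p o.law.toFG hh)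
  rwa [vF_zero, map_natCast] at h1

omit hp in
theorem c_pow (t : ℕ) : c o R p (p ^ t) = algebraMap E.A R (vF p o.law.toFG t) := rfl

/-- **The abelian case (T4).** If `#ι > p^(t-h)`, `p ι = 0`, then
`v_t^M (∏_{a ≠ 0} x a)^N ∈ I_h R` with `N = p^h binom(#ι, 2)`. -/
theorem roots_abelian [Fintype ι] [DecidableEq ι] (hx : Points o ι x) (hι : ∀ a : ι, p • a = 0)
    {h t : ℕ} (hht : h ≤ t) (hcard : p ^ (t - h) < Fintype.card ι) :
    ∃ M, algebraMap E.A R (vF p o.law.toFG t) ^ M *
      (∏ a ∈ univ.erase 0, x a) ^ (p ^ h * (Fintype.card ι).choose 2) ∈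
        (IF p o.law.toFG h).map (algebraMap E.A R) := by
  obtain ⟨M, hM⟩ := H46.roots_mod hp.out x hx.nil hx.exists_unit_sub (c o R p)
    (fun a => hx.sum_eq_zero (hι a)) _ h (p_mem p h) (c_mem p h) (p ^ (t - h)) hcard
  refine ⟨M, ?_⟩
  rwa [← pow_add, Nat.add_sub_of_le hht, c_pow] at hM

end Points

end Vale.Agent.P241.H872
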