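import Vale.Agent.P251.Q.Gen
import Vale.Agent.P241.H872.Lines

/-!
# P241, block EUL (A2): the Euler classes of the twists of a bundle by line bundles

`(E, o)` an oriented theory, `X` a compact good base, `V` a bundle of rank `n` over `X`.

* `eu_tensor_line` : `e(V ⊗ L) = ∑_{k ≤ N} c_k(V) e(L)^k` for every line bundle `L` in `ℂ^κ`,
  `#κ ≤ N + 1`;
* `isUnit_cc` : `c_n(V) = 1 + nilpotent` is a unit;
* `prod_pow_eq_zero` : if `e(V ⊗ L_a) = e(V)` for a family of line bundles `L_a`, `a ∈ ι`, whose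
  Euler classes `x a` form points of the formal group law, and `0 < n < #ι`, then
  `(∏_{a ≠ 0} x a)^binom(#ι, 2) = 0`.
-/

set_option linter.unusedSectionVars false

open CategoryTheory MonoidalCategory OnePoint Topology Matrix
open Vale.Agent.P251.G Vale.Agent.P251.G.LC Vale.Agent.P251.Q Vale.Agent.P251.Q.MultTheory

universe v

noncomputable section

namespace Vale.Agent.P241.H872

variable {E : MultTheory.{v}} (o : Orientation E) [E.GoodGr] {I κ : Type} [Fintype I]
  [Fintype κ] {n : ℕ}

/-! ### The coefficient of `z^n` is a unit -/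

/-- The class `c_n` of a bundle of rank `n` is `1 + nilpotent`, universal case. -/
theorem isNilpotent_cG_sub_one : ∀ (n : ℕ) (I : Type) [Fintype I],
    IsNilpotent (o.cG n I n - 1) := by
  refine gr_induction ?_ ?_ ?_ ?_
  · intro I _
    have h1 : o.cG 0 I 0 = 1 := by
      rw [o.cG_zero]
      have h3 : E.Good (Bun.tot (X := LC.of (Gr 0 I)) (taut 0 I)) :=
        MultTheory.Good.of_homeo E (X := LC.of (Th 0 I))
          (Y := Bun.tot (X := LC.of (Gr 0 I)) (taut 0 I)) (tautHomeo (n := 0) (I := I)).symm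
      have h2 := e_rank_zero o (B := LC.of (Gr 0 I)) (taut 0 I) (taut_isRank 0 I)
      rw [← o.eu_taut, ← h2]
      exact o.eu_eq_e _ _
    rw [h1, sub_self]
    exact IsNilpotent.zero
  · intro n I _ _
    have : IsEmpty (LC.of (Gr (n + 1) I)) := inferInstanceAs (IsEmpty (Gr (n + 1) I))
    rw [eq_zero_of_isEmpty (o.cG (n + 1) I (n + 1) - 1)]
    exact IsNilpotent.zero
  · intro n I _ _ h1 h2
    set y : E.U (LC.of (Gr (n + 1) (I ⊕ Unit))) := o.cG (n + 1) (I ⊕ Unit) (n + 1) - 1 with hy
    obtain ⟨k, hk⟩ : IsNilpotent (E.mapAlg (addOneC n I) y) := by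
      rw [hy, map_sub, map_one, mapAlg_apply, o.map_addOne_cG, if_neg (Nat.succ_ne_zero n)]
      exact h1
    obtain ⟨l, hl⟩ : IsNilpotent (E.mapAlg (addZeroC (n + 1) I) y) := by
      rw [hy, map_sub, map_one, mapAlg_apply, o.map_addZero_cG]
      exact h2
    have h3 : E.map Gr.addOneHom (y ^ k) = 0 := by
      rw [← cmap_addOneC]
      have := map_pow (E.mapAlg (addOneC n I)) y k
      rw [hk] at this
      exact this
    obtain ⟨t, ht⟩ := (exact_mid (cofSeq_gr (n := n) (I := I)) _).mp h3
    refine ⟨l + k, ?_⟩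
    have h4 : E.map (cmap (addZeroC (n + 1) I)) (y ^ l) = 0 := by
      have := map_pow (E.mapAlg (addZeroC (n + 1) I)) y l
      rw [hl] at this
      exact this
    rw [pow_add, ← ht, ← Orientation.map_collapse_act, h4]
    simp
  · intro n I J _ _ _ _ e h
    obtain ⟨k, hk⟩ := h
    refine ⟨k, ?_⟩
    have h1 : o.cG n J n - 1 = E.mapAlg
        (grMapC n (injMat e.symm) (injMat_isom e.symm.injective)) (o.cG n I n - 1) := by
      rw [map_sub, map_one]
      congr 1
      exact (o.map_cG (injMat e.symm) (injMat_isom e.symm.injective) n).symm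
    rw [h1, ← map_pow, hk, map_zero]

section base

variable {X : LC} [CompactSpace X] [E.Good X]

/-- The class `c_n` of a bundle of rank `n` is a unit. -/
theorem isUnit_cc (V : Bun X I) (h : V.IsRank n) : IsUnit (o.cc V h n) := by
  have h1 : o.cc V h n = E.mapAlg (Y := LC.of (Gr n I)) (V.toGr h) (o.cG n I n) :=
    (o.map_cc (Y := X) (X := LC.of (Gr n I)) (V.toGr h) (taut n I) (taut_isRank n I) n).symm
  have h2 : IsUnit (o.cG n I n) := by
    have := (isNilpotent_cG_sub_one o n I).isUnit_one_add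
    rwa [add_sub_cancel] at this
  rw [h1]
  exact h2.map _

/-! ### Twists -/

/-- Twists by a line bundle in `ℂ^(N+1)`. -/
theorem eu_tensor_line_fin (V : Bun X I) (h : V.IsRank n) {N : ℕ} (L : Bun X (Fin (N + 1)))
    (hL : L.IsRank 1) (hVL : (V.tensor L).IsRank n) :
    o.eu (V.tensor L) hVL = ∑ k ∈ Finset.range (N + 1), o.cc V h k * o.eu L hL ^ k := by
  set f : C(X, (X ⊗ CPn N : LC)) := pairC (ContinuousMap.id X)
    (⟨L.toGr hL, (L.toGr hL).continuous⟩ : C(X, CPn N)) with hf
  have h1 : o.eu (V.tensor L) hVL = E.mapAlg f (o.eT N V h) := by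
    rw [mapAlg_apply]
    unfold Orientation.eT
    rw [o.map_eu]
    exact o.eu_congr rfl rfl _ _
  have h2 := o.exp_cc V h N
  unfold Orientation.IsExp at h2
  rw [h1, h2, map_sum]
  refine Finset.sum_congr rfl fun k _ => ?_
  rw [Orientation.cross_eq_cmap_mul, map_mul]
  congr 1
  · rw [← mapAlg_apply, mapAlg_mapAlg]
    have : (fstC X (CPn N)).comp f = ContinuousMap.id X := rfl
    rw [this, mapAlg_apply]
    have h3 : cmap (ContinuousMap.id X) = 𝟙 X := LC.hom_ext fun x => rfl
    rw [h3, MultTheory.map_id]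
  · rw [← mapAlg_apply, mapAlg_mapAlg, map_pow]
    congr 1

/-- the bundle `u V uᴴ` for an isometry `u` -/
def conjBun [DecidableEq κ] {J : Type} [Fintype J] [DecidableEq J] (L : Bun X κ)
    (u : Matrix J κ ℂ) (hu : uᴴ * u = 1) : Bun X J where
  P x := u * L.P x * uᴴ
  cont := (continuous_const.matrix_mul L.cont).matrix_mul continuous_const
  idem x := by
    calc u * L.P x * uᴴ * (u * L.P x * uᴴ) = u * (L.P x * ((uᴴ * u) * L.P x)) * uᴴ := by
          simp only [Matrix.mul_assoc]
      _ = _ := by rw [hu, Matrix.one_mul, L.idem]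
  herm x := by
    rw [conjTranspose_mul, conjTranspose_mul, conjTranspose_conjTranspose, L.herm,
      Matrix.mul_assoc]

theorem conjBun_isRank [DecidableEq κ] {J : Type} [Fintype J] [DecidableEq J] {L : Bun X κ}
    (hL : L.IsRank n) {u : Matrix J κ ℂ} (hu : uᴴ * u = 1) : (conjBun L u hu).IsRank n := by
  intro x
  change (u * L.P x * uᴴ).trace = n
  rw [Matrix.trace_mul_comm, ← Matrix.mul_assoc, hu, Matrix.one_mul, hL x]

/-- **Twists by a line bundle.** -/
theorem eu_tensor_line (V : Bun X I) (h : V.IsRank n) (L : Bun X κ) (hL : L.IsRank 1)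
    (hVL : (V.tensor L).IsRank n) {N : ℕ} (hN : Fintype.card κ ≤ N + 1) :
    o.eu (V.tensor L) hVL = ∑ k ∈ Finset.range (N + 1), o.cc V h k * o.eu L hL ^ k := by
  classical
  let u : κ → Fin (N + 1) := fun i => Fin.castLE hN (Fintype.equivFin κ i)
  have hu : Function.Injective u := (Fin.castLE_injective hN).comp (Fintype.equivFin κ).injective
  have h1 : o.eu (conjBun L (injMat u) (injMat_isom hu)) (conjBun_isRank hL _) = o.eu L hL :=
    o.eu_isom (injMat u) (injMat_isom hu) L hL _ _ fun x => rfl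
  have h3 : (V.tensor (conjBun L (injMat u) (injMat_isom hu))).IsRank n := by
    have := h.tensor (conjBun_isRank hL (injMat_isom hu))
    rwa [mul_one] at this
  have h2 : o.eu (V.tensor (conjBun L (injMat u) (injMat_isom hu))) h3 =
      o.eu (V.tensor L) hVL := by
    refine o.eu_isom (kroneckerMap (· * ·) 1 (injMat u))
      (Orientation.kron_isom isom_one (injMat_isom hu)) _ _ _ _ fun x => ?_
    change kroneckerMap (· * ·) (V.P x) (injMat u * L.P x * (injMat u)ᴴ) =
      kroneckerMap (· * ·) 1 (injMat u) * kroneckerMap (· * ·) (V.P x) (L.P x) *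
        (kroneckerMap (· * ·) 1 (injMat u))ᴴ
    rw [← Orientation.kron_conj]
    simp
  rw [← h2, eu_tensor_line_fin o V h _ (conjBun_isRank hL _) h3, h1]

/-- **The nonabelian case (T3).** Let `V` be a bundle of rank `n`, `0 < n < #ι`, and `L a`, `a ∈ ι`,
line bundles with Euler classes `x a` (points of the formal group law) such that
`e(V ⊗ L a) = e(V)`. Then `(∏_{a ≠ 0} x a)^binom(#ι, 2) = 0`. -/
theorem prod_pow_eq_zero {ι : Type} [AddCommGroup ι] [Fintype ι] [DecidableEq ι]
    {x : ι → E.U X} (hx : Points o ι x) (V : Bun X I) (h : V.IsRank n) (hn0 : 0 < n)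
    (hn : n < Fintype.card ι) {κ : ι → Type} [∀ a, Fintype (κ a)] (L : ∀ a, Bun X (κ a))
    (hL : ∀ a, (L a).IsRank 1) (hxL : ∀ a, x a = o.eu (L a) (hL a))
    (hVL : ∀ a, (V.tensor (L a)).IsRank n)
    (hV : ∀ a, o.eu (V.tensor (L a)) (hVL a) = o.eu V h) :
    (∏ a ∈ Finset.univ.erase 0, x a) ^ (Fintype.card ι).choose 2 = 0 := by
  obtain ⟨N, hN, hnN⟩ : ∃ N, (∀ a, Fintype.card (κ a) ≤ N + 1) ∧ n ≤ N := by
    refine ⟨∑ a, Fintype.card (κ a) + n, fun a => ?_, by omega⟩
    have := Finset.single_le_sum (f := fun a => Fintype.card (κ a)) (fun _ _ => Nat.zero_le _)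
      (Finset.mem_univ a)
    omega
  set f : Polynomial (E.U X) := (∑ k ∈ Finset.range (N + 1),
    Polynomial.C (o.cc V h k) * Polynomial.X ^ k) - Polynomial.C (o.eu V h) with hf
  refine H46.roots_unit x hx.nil hx.exists_unit_sub f (fun a => ?_) n hn ?_
  · rw [hf, Polynomial.eval_sub, Polynomial.eval_finsetSum, Polynomial.eval_C, ← hV a,
      eu_tensor_line o V h (L a) (hL a) (hVL a) (hN a), ← hxL a]
    simp
  · have h1 : f.coeff n = o.cc V h n := by
      rw [hf, Polynomial.coeff_sub, Polynomial.coeff_C, if_neg (by omega), sub_zero,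
        Polynomial.finsetSum_coeff, Finset.sum_eq_single n]
      · simp
      · intro k _ hk
        simp [Polynomial.coeff_X_pow, Ne.symm hk]
      · intro h
        exact absurd (Finset.mem_range.2 (by omega)) h
    rw [h1]
    exact isUnit_cc o V h

/-- The Euler classes of a group of line bundles are points of the formal group law. -/
theorem points_of_lines {ι : Type} [AddCommGroup ι] {κ : ι → Type} [∀ a, Fintype (κ a)]
    (L : ∀ a, Bun X (κ a)) (hL : ∀ a, (L a).IsRank 1) (h0 : o.eu (L 0) (hL 0) = 0)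
    (hLL : ∀ a b, ((L a).tensor (L b)).IsRank 1)
    (hadd : ∀ a b, o.eu (L (a + b)) (hL _) = o.eu ((L a).tensor (L b)) (hLL a b)) :
    Points o ι fun a => o.eu (L a) (hL a) where
  nil a := isNilpotent_lc o (X := X) ((L a).toGr (hL a) : C(X, CP (κ a)))
  zero := h0
  add a b := by
    rw [hadd]
    exact lc_tens o (X := X) ((L a).toGr (hL a) : C(X, CP (κ a)))
      ((L b).toGr (hL b) : C(X, CP (κ b)))

end base

end Vale.Agent.P241.H872
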