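import Vale.Agent.P241.EUL.EulProd
import Vale.Agent.P251.Q.HasLaw
import Vale.Agent.P241.H872.Twist

/-!
# P241, block EUL-2 / EUL-6: the line classes of characters over `B = E / V`, and T3

`B` is a compact good base, `q : E → B` the quotient by `V`, `c a : Rep V Unit` (`a ∈ ι`) a group
of one dimensional representations, `F a` frames.

* `e_kron` : the Euler class of `bun U ⊗ bun U'` from any frame of an isomorphic representation;
* `points` : the Euler classes `x a = o.e ((F a).bun hq)` are points of the formal group law;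
* `lc_tens_frame` : `o.lc (line (a + b)) = o.lc (tens (line a) (line b))`;
* `nonab` : if `U` has dimension `n`, `0 < n < #ι` and `U ⊗ c a ≅ U` for all `a`, then
  `(∏_{a ≠ 0} x a)^binom(#ι, 2) = 0`.
-/

open Matrix Topology

universe w

noncomputable section

namespace Vale.Agent.P241.H872

open Vale.Agent.P251.G Vale.Agent.P251.Q Vale.Agent.P251.Q.MultTheory Vale.Agent.P241.EUL

variable {V : Type} [Group V] {E : Type} [TopologicalSpace E] [MulAction V E]

section bun

variable {κ κ' : Type} [Fintype κ] [DecidableEq κ] [Fintype κ'] [DecidableEq κ']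
  {ι : Type} [Fintype ι]

theorem bun_inter {U : Rep V κ} {U' : Rep V κ'} (F : Frame E U ι) (T : Matrix κ κ' ℂ)
    (hT : Tᴴ * T = 1) (hT' : T * Tᴴ = 1)
    (h : ∀ v, T * (U' v : Matrix κ' κ' ℂ) = (U v : Matrix κ κ ℂ) * T)
    {B : Type} [TopologicalSpace B] {q : E → B} (hq : IsQuo V q) :
    (F.inter T hT h).bun hq = F.bun hq := by
  ext1
  funext b
  obtain ⟨e, rfl⟩ := hq.surj b
  rw [Frame.bun_P, Frame.bun_P, Frame.inter_R, conjTranspose_mul, Matrix.mul_assoc,
    ← Matrix.mul_assoc T, hT', Matrix.one_mul]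

end bun

section euler

variable {Th : MultTheory.{w}} (o : Orientation Th) {B : LC} [CompactSpace B]
  [hB : GoodBase Th B] {q : E → B} (hq : IsQuo V q)

/-- If `U' ≅ U ⊗ c` then `e(U') = e(bun U ⊗ bun c)`. -/
theorem e_kron {κ κ' κ'' : Type} [Fintype κ] [DecidableEq κ] [Fintype κ'] [DecidableEq κ']
    [Fintype κ''] [DecidableEq κ''] {U : Rep V κ} {U' : Rep V κ'} {U'' : Rep V κ''}
    {ι ι' ι'' : Type} [Fintype ι] [Fintype ι'] [Fintype ι''] (F : Frame E U ι)
    (F' : Frame E U' ι') (F'' : Frame E U'' ι'') {n : ℕ}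
    (h : ((F.bun hq).tensor (F'.bun hq)).IsRank n) (h'' : (F''.bun hq).IsRank n)
    (T : Matrix (κ × κ') κ'' ℂ) (hT : Tᴴ * T = 1) (hT' : T * Tᴴ = 1)
    (hi : ∀ v, T * (U'' v : Matrix κ'' κ'' ℂ) =
      (U.kron U' v : Matrix (κ × κ') (κ × κ') ℂ) * T) :
    o.e ((F.bun hq).tensor (F'.bun hq)) h = o.e (F''.bun hq) h'' := by
  have h1 : ((F.kron F').inter T hT hi).bun hq = (F.bun hq).tensor (F'.bun hq) := by
    rw [bun_inter _ _ _ hT', Frame.bun_kron]
  have h2 : (((F.kron F').inter T hT hi).bun hq).IsRank n := by rw [h1]; exact h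
  rw [← e_frame o hq ((F.kron F').inter T hT hi) F'' h2 h'']
  congr 1
  exact h1.symm

variable {ι : Type} {J : ι → Type} [∀ a, Fintype (J a)] {c : ι → Rep V Unit}
  (F : ∀ a, Frame E (c a) (J a))

/-- The Euler class of a character. -/
def xc (a : ι) : Th.U B := o.e ((F a).bun hq) ((F a).isRank hq (Fintype.card_unit))

/-- The line bundle of a character. -/
def line (a : ι) : C(B, Vale.Agent.P251.Q.CP (J a)) :=
  lineCls ((F a).bun hq) ((F a).isRank hq (Fintype.card_unit))

theorem xc_eq (a : ι) : xc o hq F a = o.lc (line hq F a) := EUL.e_eq_lc o _ _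

variable [AddCommGroup ι]

theorem e_tensor_line (hc : ∀ a b v, (c (a + b)).num v = (c a).num v * (c b).num v) (a b : ι)
    (h : (((F a).bun hq).tensor ((F b).bun hq)).IsRank 1) :
    o.e (((F a).bun hq).tensor ((F b).bun hq)) h = xc o hq F (a + b) := by
  refine e_kron o hq (F a) (F b) (F (a + b)) h _ (Matrix.of fun _ _ => 1) ?_ ?_ ?_
  · ext i j
    simp [mul_apply, conjTranspose_apply]
  · ext i j
    simp [mul_apply, conjTranspose_apply, Matrix.one_apply, Subsingleton.elim i j]
  · intro v
    ext i j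
    have h1 := hc a b v
    simp only [Rep.num] at h1
    simp [mul_apply, Fintype.sum_prod_type, h1]

omit [CompactSpace B] [AddCommGroup ι] in
theorem isRank_tensor_line (a b : ι) :
    (((F a).bun hq).tensor ((F b).bun hq)).IsRank 1 := by
  have := ((F a).isRank hq (Fintype.card_unit)).tensor ((F b).isRank hq (Fintype.card_unit))
  rwa [mul_one] at this

/-- The hypothesis of `roots_lines` and `lines_sum`. -/
theorem lc_tens_frame (hc : ∀ a b v, (c (a + b)).num v = (c a).num v * (c b).num v) (a b : ι) :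
    o.lc (line hq F (a + b)) = o.lc (tens (line hq F a) (line hq F b)) := by
  rw [← xc_eq, ← e_tensor_line o hq F hc a b (isRank_tensor_line hq F a b), EUL.e_eq_lc]
  congr 1

theorem num_zero (hc : ∀ a b v, (c (a + b)).num v = (c a).num v * (c b).num v) (v : V) :
    (c 0).num v = 1 := by
  have h1 := hc 0 0 v
  rw [add_zero] at h1
  have h2 : (c 0).num v ≠ 0 := by
    intro h
    have := (c 0).num_mul_star v
    rw [h, zero_mul] at this
    exact zero_ne_one this
  exact mul_left_cancel₀ h2 (by rw [mul_one]; exact h1.symm)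

/-- **The Euler classes of a group of characters are points of the formal group law.** -/
theorem points (hc : ∀ a b v, (c (a + b)).num v = (c a).num v * (c b).num v) :
    Points o ι (xc o hq F) where
  nil a := by rw [xc_eq]; exact isNilpotent_lc o _
  zero := e_frame_one o hq (num_zero hc) (F 0) _
  add a b := by
    rw [xc_eq, lc_tens_frame o hq F hc, lc_tens, ← xc_eq, ← xc_eq]

/-- **T3.** -/
theorem nonab [Fintype ι] [DecidableEq ι]
    (hc : ∀ a b v, (c (a + b)).num v = (c a).num v * (c b).num v)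
    {κ K : Type} [Fintype κ] [DecidableEq κ] [Fintype K] {U : Rep V κ} (G : Frame E U K)
    (h0 : 0 < Fintype.card κ) (h1 : Fintype.card κ < Fintype.card ι)
    (hT : ∀ a, ∃ T : Matrix κ κ ℂ, Tᴴ * T = 1 ∧ ∀ v,
      T * (U v : Matrix κ κ ℂ) = (c a).num v • ((U v : Matrix κ κ ℂ) * T)) :
    (∏ a ∈ Finset.univ.erase 0, xc o hq F a) ^ (Fintype.card ι).choose 2 = 0 := by
  have := o.goodGr
  have hr := G.isRank hq rfl
  have hF := fun a => (F a).isRank hq (Fintype.card_unit)
  have htot := hB.tot _ hr
  have hr2 : ∀ a, ((G.bun hq).tensor ((F a).bun hq)).IsRank (Fintype.card κ) := by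
    intro a
    have := hr.tensor (hF a)
    rwa [mul_one] at this
  refine prod_pow_eq_zero o (points o hq F hc) (G.bun hq) hr h0 h1 (fun a => (F a).bun hq) hF
    (fun a => ?_) hr2 (fun a => ?_)
  · have := hB.tot _ (hF a)
    exact (o.eu_eq_e _ _).symm
  · have := hB.tot _ (hr2 a)
    rw [o.eu_eq_e, o.eu_eq_e]
    obtain ⟨T, hT1, hT2⟩ := hT a
    have hT3 : T * Tᴴ = 1 := mul_eq_one_comm.1 hT1
    refine e_kron o hq G (F a) G (hr2 a) hr (Matrix.of fun i j => T i.1 j) ?_ ?_ fun v => ?_
    · ext i j
      have := congrFun (congrFun hT1 i) j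
      rw [← this]
      simp [mul_apply, Fintype.sum_prod_type, conjTranspose_apply]
    · ext i j
      have := congrFun (congrFun hT3 i.1) j.1
      simp only [mul_apply, conjTranspose_apply, Matrix.of_apply] at this ⊢
      rw [this]
      simp [Matrix.one_apply, Prod.ext_iff]
    · ext i j
      have := congrFun (congrFun (hT2 v) i.1) j
      simp only [mul_apply, Matrix.smul_apply, smul_eq_mul, Finset.mul_sum] at this
      simp only [mul_apply, Fintype.sum_prod_type, Rep.kron_coe, kroneckerMap_apply,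
        Matrix.of_apply]
      rw [this]
      refine Finset.sum_congr rfl fun k _ => ?_
      simp [Rep.num]
      ring

end euler

end Vale.Agent.P241.H872
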